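import Vale.Agent.P032.Net.H672.End

/-!
# P032: the network of two-pair centres without the arc relation

`DNet0`: the fields of helper672's `DNet` which do not speak about the other ends of the arcs, so that
the circles may have special ends.  `DNet0.ori_eq`: at a centre with one clean end of a type and two
clean ends of the complementary type the two arcs of the second kind have the same orientation.  The
proofs are helper672's.
-/

open Complex Set

set_option linter.dupNamespace false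

namespace Vale.Agent.P032.Net.H12

open Vale.Agent.P032.Net.H672

/-- the facts on palettes and ends at the two-pair centres -/
structure DNet0 (T : ℂ → Set (Fin 6)) (E : ℂ → ℂ → Prop)
    (o : ℂ → ℂ → ℝ) (inn : ℂ → ℂ → Fin 6) : Prop where
  net : ∀ X : Set (Fin 6), Net (fun z v => E z v ∧ T v = X) (fun z q => E z q ∧ T q = Xᶜ)
  card_v : ∀ {z v}, E z v → (T v).ncard = 3
  card_i : ∀ {z v}, E z v → (T v ∩ T z).ncard = 2
  cov : ∀ {z v q}, E z v → E z q → T q = (T v)ᶜ → ∀ i, i ∈ T z ∨ i ∈ T (v + q - z)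
  ori : ∀ {z v}, E z v → o z v = 1 ∨ o z v = -1
  inn_mem : ∀ {z v}, E z v → inn z v ∈ T v ∩ T z
  LP1 : ∀ {z v q}, E z v → E z q → T q = (T v)ᶜ →
    (0 < o z v * dt (z - v) (q - z) ↔ inn (v + q - z) v ∈ T z)
  LP2 : ∀ {z q v v'}, Full T E z q → Full T E z v → Full T E z v' → T v ∩ T z = T z \ T q →
    T v' ∩ T z = T z \ T q →
    (inn z v = inn z v' ↔ 0 < dt (q - z) (v - z) * dt (q - z) (v' - z))
  LP3 : ∀ {z v q c p}, E z v → E z q → T q = (T v)ᶜ → E c v → E c p → T p = (T v)ᶜ →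
    c ≠ z → c ≠ v + q - z → ∃ a b : ℝ, 0 ≤ a ∧ 0 ≤ b ∧
      ((o c v : ℝ) : ℂ) * (c - v) + (a : ℂ) * (((o z v : ℝ) : ℂ) * (z - v))
        + (b : ℂ) * (((o (v + q - z) v : ℝ) : ℂ) * (q - z)) = 0
  auto : ∀ {z v q m}, E z v → E z q → T q = (T v)ᶜ → dist m z = 1 → T m = T v → E z m
  common : ∀ {w v q w' v' q' m}, E w v → E w q → T q = (T v)ᶜ → E w' v' → E w' q' →
    T q' = (T v')ᶜ → w ≠ w' → (∀ i, i ∈ T w ∨ i ∈ T w') → dist m w = 1 → dist m w' = 1 →
    w + w' ≠ 2 * m → (T v ∩ T w ∩ T w').ncard = 1 → (T v' ∩ T w' ∩ T w).ncard = 1 →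
    (T m).ncard = 3 ∧
      (T m ∩ T w = T v ∩ T w ∨ T m ∩ T w = T q ∩ T w) ∧
      (T m ∩ T w' = T v' ∩ T w' ∨ T m ∩ T w' = T q' ∩ T w')

variable {T : ℂ → Set (Fin 6)} {E : ℂ → ℂ → Prop} {o : ℂ → ℂ → ℝ} {inn : ℂ → ℂ → Fin 6}

namespace DNet0

variable {M v q q' : ℂ}

theorem exists_mid (D : DNet0 T E o inn) {z : ℂ} (hv : E z v) (hq : E z q)
    (e : T q = (T v)ᶜ) : ∃ M q', Mid T E M v q q' := by
  obtain ⟨M, q', hne, h1, h2, h3⟩ := (D.net (T v)).exists_middle (z := z) ⟨hv, rfl⟩ ⟨hq, e⟩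
  exact ⟨M, q', h1.1, h2.1, h3.1, h2.2, h3.2, hne⟩

theorem mid_swap (m : Mid T E M v q q') : Mid T E M v q' q :=
  ⟨m.hv, m.hq', m.hq, m.e', m.e, m.ne.symm⟩

theorem uniq_v (D : DNet0 T E o inn) (m : Mid T E M v q q') {p : ℂ} (h : E M p)
    (e : T p = T v) : p = v :=
  ((D.net (T v)).middle_uniq ⟨m.hv, rfl⟩ ⟨m.hq, m.e⟩ ⟨m.hq', m.e'⟩ m.ne).1 p ⟨h, e⟩

theorem uniq_q (D : DNet0 T E o inn) (m : Mid T E M v q q') {p : ℂ} (h : E M p)
    (e : T p = (T v)ᶜ) : p = q ∨ p = q' :=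
  ((D.net (T v)).middle_uniq ⟨m.hv, rfl⟩ ⟨m.hq, m.e⟩ ⟨m.hq', m.e'⟩ m.ne).2 p ⟨h, e⟩

theorem mid_side (D : DNet0 T E o inn) (m : Mid T E M v q q') :
    ∃ v', Mid T E (v + q - M) q v v' := by
  obtain ⟨-, v', n1, s1, -⟩ :=
    (D.net (T v)).side (M := M) ⟨m.hv, rfl⟩ ⟨m.hq, m.e⟩ ⟨m.hq', m.e'⟩ m.ne
  have w := (D.net (T v)).rh (z := M) ⟨m.hv, rfl⟩ ⟨m.hq, m.e⟩
  refine ⟨v', w.2.1, w.1.1, s1.1, ?_, ?_, n1.symm⟩
  · rw [m.e, compl_compl]
  · rw [m.e, compl_compl, s1.2]

theorem opp (D : DNet0 T E o inn) (m : Mid T E M v q q') :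
    dt (v - M) (q - M) * dt (v - M) (q' - M) < 0 :=
  (D.net (T v)).opp_sides ⟨m.hv, rfl⟩ ⟨m.hq, m.e⟩ ⟨m.hq', m.e'⟩ m.ne

/-- **FLIP** -/
theorem flip_v (D : DNet0 T E o inn) (m : Mid T E M v q q') :
    o (v + q - M) v = -o M v := by
  have w := (D.net (T v)).rh (z := M) ⟨m.hv, rfl⟩ ⟨m.hq, m.e⟩
  have w' := (D.net (T v)).rh (z := M) ⟨m.hv, rfl⟩ ⟨m.hq', m.e'⟩
  have n1 : v + q' - M ≠ M := (D.net (T v)).ne_z (z := M) ⟨m.hv, rfl⟩ ⟨m.hq', m.e'⟩
  have n2 : v + q' - M ≠ v + q - M := fun h => m.ne (by linear_combination -h)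
  obtain ⟨a, b, ha, hb, h⟩ := D.LP3 m.hv m.hq m.e w'.1.1 w'.2.1 m.e' n1 n2
  obtain ⟨β, γ, hβ, hγ, hg⟩ :=
    (D.net (T v)).between (M := M) ⟨m.hv, rfl⟩ ⟨m.hq, m.e⟩ ⟨m.hq', m.e'⟩ m.ne
  have hqq := (D.net (T v)).dt_qq (M := M) ⟨m.hv, rfl⟩ ⟨m.hq, m.e⟩ ⟨m.hq', m.e'⟩ m.ne
  refine (flip (g := M - v) (n := v + q - M - v) (n' := v + q' - M - v) (D.ori m.hv)
    (D.ori w.1.1) (D.ori w'.1.1) ?_ hβ hγ hg ⟨a, b, 1, ha, hb, zero_le_one, by positivity,
      ?_⟩).1
  · rw [show v + q - M - v = q - M by ring, show v + q' - M - v = q' - M by ring]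
    exact hqq
  · push_cast
    linear_combination I * h

theorem flip_q (D : DNet0 T E o inn) (m : Mid T E M v q q') :
    o (v + q - M) q = -o M q := by
  obtain ⟨v', m'⟩ := D.mid_side m
  have h := D.flip_v m'
  rw [show q + v - (v + q - M) = M by ring] at h
  linarith

theorem be1 (D : DNet0 T E o inn) (m : Mid T E M v q q') :
    inn M v ∈ T (v + q - M) ↔ o M v * dt (v - M) (q - M) < 0 := by
  obtain ⟨v', m'⟩ := D.mid_side m
  have h := D.LP1 m'.hq m'.hv (by rw [m.e])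
  rw [show v + q - (v + q - M) = M by ring, D.flip_v m, show v + q - M - v = q - M by ring,
    show q - (v + q - M) = -(v - M) by ring, dt_neg_right, dt_comm (v - M) (q - M)] at h
  rw [← h]
  constructor <;> intro h' <;> nlinarith

theorem be2 (D : DNet0 T E o inn) (m : Mid T E M v q q') :
    inn M q ∈ T (v + q - M) ↔ 0 < o M q * dt (v - M) (q - M) := by
  obtain ⟨v', m'⟩ := D.mid_side m
  have h := D.LP1 m'.hv m'.hq m'.e
  rw [show q + v - (v + q - M) = M by ring, D.flip_q m, show v + q - M - q = v - M by ring,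
    show v - (v + q - M) = -(q - M) by ring, dt_neg_right] at h
  rw [← h]
  constructor <;> intro h' <;> nlinarith

theorem cov' (D : DNet0 T E o inn) (m : Mid T E M v q q') (i : Fin 6) :
    i ∈ T M ∨ i ∈ T (v + q - M) := D.cov m.hv m.hq m.e i

/-- **(al)** the two side centres do not have all six colours -/
theorem al (D : DNet0 T E o inn) (m : Mid T E M v q q') :
    ∃ i, i ∉ T (v + q - M) ∧ i ∉ T (v + q' - M) := by
  by_contra hcon
  push Not at hcon
  have hall : ∀ i, i ∈ T (v + q - M) ∨ i ∈ T (v + q' - M) := fun i =>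
    or_iff_not_imp_left.2 (hcon i)
  obtain ⟨v1, m1⟩ := D.mid_side m
  obtain ⟨v2, m2⟩ := D.mid_side (mid_swap m)
  have hqq := (D.net (T v)).dt_qq (M := M) ⟨m.hv, rfl⟩ ⟨m.hq, m.e⟩ ⟨m.hq', m.e'⟩ m.ne
  have hneq : v + q - M ≠ v + q' - M := fun h => m.ne (by linear_combination h)
  have dq : dist q M = 1 := (D.net (T v)).dist_c (z := M) ⟨m.hq, m.e⟩
  have dq' : dist q' M = 1 := (D.net (T v)).dist_c (z := M) ⟨m.hq', m.e'⟩
  set p : ℂ := v + q + q' - 2 * M with hp
  have d1 : dist p (v + q - M) = 1 := by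
    rw [dist_eq_norm, show p - (v + q - M) = q' - M by rw [hp]; ring, ← dist_eq_norm, dq']
  have d2 : dist p (v + q' - M) = 1 := by
    rw [dist_eq_norm, show p - (v + q' - M) = q - M by rw [hp]; ring, ← dist_eq_norm, dq]
  have n2 : (v + q - M) + (v + q' - M) ≠ 2 * p := by
    intro h
    apply hqq
    have : q' - M = -(q - M) := by rw [hp] at h; linear_combination -h
    rw [this, dt_neg_right, dt_self, neg_zero]
  have npv : p ≠ v := by
    intro h
    apply n2
    rw [h]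
    rw [hp] at h
    linear_combination h
  obtain ⟨h3, hA, hB⟩ := D.common m1.hq m1.hv (by rw [m.e]) m2.hq m2.hv (by rw [m.e']) hneq hall
    d1 d2 n2 (inter_one (D.card_v m.hv) (D.card_i m1.hq) (D.card_i m2.hq) hall)
    (inter_one (D.card_v m.hv) (D.card_i m2.hq) (D.card_i m1.hq) fun i => (hall i).symm)
  have hcov : ∀ i, i ∈ T p ↔ i ∈ T p ∩ T (v + q - M) ∨ i ∈ T p ∩ T (v + q' - M) := by
    intro i
    constructor
    · intro hi
      rcases hall i with h | h
      · exact Or.inl ⟨hi, h⟩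
      · exact Or.inr ⟨hi, h⟩
    · rintro (h | h) <;> exact h.1
  rcases hA with hA | hA <;> rcases hB with hB | hB
  · -- the type of `v`
    have hT : T p = T v := by
      ext i
      rw [hcov, hA, hB]
      constructor
      · rintro (h | h) <;> exact h.1
      · intro hi
        rcases hall i with h | h
        · exact Or.inl ⟨hi, h⟩
        · exact Or.inr ⟨hi, h⟩
    have e1 : E (v + q - M) p := D.auto m1.hq m1.hv (by rw [m.e]) d1 hT
    have e2 : E (v + q' - M) p := D.auto m2.hq m2.hv (by rw [m.e']) d2 hT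
    have := (D.net (T v)).sides (M := M) ⟨m.hv, rfl⟩ ⟨m.hq, m.e⟩ ⟨m.hq', m.e'⟩ m.ne
      ⟨e1, hT⟩ npv ⟨e2, hT⟩ npv
    nlinarith [mul_self_nonneg (dt (M - v) (p - v))]
  · exfalso
    have hdis : Disjoint (T p ∩ T (v + q - M)) (T p ∩ T (v + q' - M)) := by
      rw [hA, hB, m.e', Set.disjoint_left]
      rintro i ⟨h, -⟩ ⟨h', -⟩
      exact h' h
    have hc : (T p).ncard = (T p ∩ T (v + q - M)).ncard + (T p ∩ T (v + q' - M)).ncard := by
      rw [← ncard_union_eq hdis (toFinite _) (toFinite _)]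
      congr 1
      ext i
      exact hcov i
    rw [hA, hB, D.card_i m1.hq, D.card_i m2.hv, h3] at hc
    omega
  · exfalso
    have hdis : Disjoint (T p ∩ T (v + q - M)) (T p ∩ T (v + q' - M)) := by
      rw [hA, hB, m.e, Set.disjoint_left]
      rintro i ⟨h, -⟩ ⟨h', -⟩
      exact h h'
    have hc : (T p).ncard = (T p ∩ T (v + q - M)).ncard + (T p ∩ T (v + q' - M)).ncard := by
      rw [← ncard_union_eq hdis (toFinite _) (toFinite _)]
      congr 1
      ext i
      exact hcov i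
    rw [hA, hB, D.card_i m1.hv, D.card_i m2.hq, h3] at hc
    omega
  · -- the type of `q`
    have hT : T p = T q := by
      ext i
      rw [hcov, hA, hB, m.e, m.e']
      constructor
      · rintro (h | h) <;> exact h.1
      · intro hi
        rcases hall i with h | h
        · exact Or.inl ⟨hi, h⟩
        · exact Or.inr ⟨hi, h⟩
    have e1 : E (v + q - M) p := D.auto m1.hv m1.hq m1.e d1 hT
    have e2 : E (v + q' - M) p := D.auto m2.hv m2.hq m2.e d2 (by rw [hT, m.e, m.e'])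
    have u1 := D.uniq_v m1 e1 hT
    have u2 := D.uniq_v m2 e2 (by rw [hT, m.e, m.e'])
    exact m.ne (u1.symm.trans u2)

theorem sign_iff {a b x y : ℝ} (ha : a = 1 ∨ a = -1) (hb : b = 1 ∨ b = -1) (hxy : x * y < 0)
    (h : (0 < a * x) ↔ ¬ (0 < b * y)) : a = b := by
  have hx : x ≠ 0 := by rintro rfl; simp at hxy
  have hy : y ≠ 0 := by rintro rfl; simp at hxy
  rcases ha with rfl | rfl <;> rcases hb with rfl | rfl
  · rfl
  · exfalso
    rcases lt_or_gt_of_ne hx with h1 | h1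
    · have h2 : 0 < y := by nlinarith
      have : ¬ (0 < (-1 : ℝ) * y) := by linarith
      have := h.2 this
      linarith
    · have h2 : y < 0 := by nlinarith
      exact h.1 (by linarith) (by linarith)
  · exfalso
    rcases lt_or_gt_of_ne hx with h1 | h1
    · have h2 : 0 < y := by nlinarith
      exact h.1 (by linarith) (by linarith)
    · have h2 : y < 0 := by nlinarith
      have : ¬ (0 < (1 : ℝ) * y) := by linarith
      have := h.2 this
      linarith
  · rfl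

theorem opp' (D : DNet0 T E o inn) (m : Mid T E M v q q') :
    (inn M v ∈ T (v + q - M) ↔ ¬ inn M v ∈ T (v + q' - M)) := by
  rw [D.be1 m, D.be1 (mid_swap m)]
  have h := D.opp m
  rcases D.ori m.hv with ho | ho <;> rw [ho] <;> constructor <;> intro h1
  · nlinarith
  · by_contra h2; push Not at h1 h2; nlinarith
  · nlinarith
  · by_contra h2; push Not at h1 h2; nlinarith

theorem inter_eq_diff (_D : DNet0 T E o inn) {z v q : ℂ} (_h : E z v) (_h' : E z q)
    (e : T q = (T v)ᶜ) : T q ∩ T z = T z \ T v := by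
  rw [e]
  ext i
  simp only [mem_inter_iff, mem_compl_iff, mem_sdiff]
  tauto

/-- **(be)**: the two arcs of the second kind at the middle centre have the same orientation -/
theorem ori_eq (D : DNet0 T E o inn) (m : Mid T E M v q q') : o M q = o M q' := by
  obtain ⟨i, hi, hi'⟩ := D.al m
  obtain ⟨v1, m1⟩ := D.mid_side m
  obtain ⟨v2, m2⟩ := D.mid_side (mid_swap m)
  have hiM : i ∈ T M := (D.cov' m i).resolve_right hi
  have hop := D.opp' m
  have hmv := D.inn_mem m.hv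
  have hiv : i ∉ T v := by
    intro hiv
    by_cases hji : inn M v = i
    · rw [hji] at hop
      exact hi (hop.2 hi')
    · exact hop.1 (mem_of_ne (D.card_v m.hv) (D.card_i m1.hq) hiv hi hmv.1 hji)
        (mem_of_ne (D.card_v m.hv) (D.card_i m2.hq) hiv hi' hmv.1 hji)
  have hiq : i ∈ T q := by rw [m.e]; exact hiv
  have hiq' : i ∈ T q' := by rw [m.e']; exact hiv
  have hq := D.inn_mem m.hq
  have hq' := D.inn_mem m.hq'
  have k1 : inn M q ∈ T (v + q - M) ↔ inn M q ≠ i :=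
    ⟨fun h h' => hi (h' ▸ h), fun h => mem_of_ne (D.card_v m.hq) (D.card_i m1.hv) hiq hi hq.1 h⟩
  have k2 : inn M q' ∈ T (v + q' - M) ↔ inn M q' ≠ i :=
    ⟨fun h h' => hi' (h' ▸ h), fun h =>
      mem_of_ne (D.card_v m.hq') (D.card_i m2.hv) hiq' hi' hq'.1 h⟩
  have hop2 := D.opp m
  have hne : inn M q ≠ inn M q' := by
    intro h
    have := (D.LP2 m.fv m.fq m.fq' (D.inter_eq_diff m.hv m.hq m.e)
      (D.inter_eq_diff m.hv m.hq' m.e')).1 h
    linarith
  -- exactly one of the two inner colours is `i`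
  have k3 : inn M q ≠ i ↔ ¬ inn M q' ≠ i := by
    constructor
    · intro h h'
      obtain ⟨x, y, hxy, hS⟩ := ncard_eq_two.1 (D.card_i m.hq)
      have a1 : i ∈ T q ∩ T M := ⟨hiq, hiM⟩
      have a3 : inn M q' ∈ T q ∩ T M := ⟨by rw [m.e, ← m.e']; exact hq'.1, hq'.2⟩
      rw [hS] at a1 a3 hq
      simp only [mem_insert_iff, mem_singleton_iff] at a1 a3 hq
      rcases a1 with a1 | a1 <;> rcases hq with hq | hq <;> rcases a3 with a3 | a3 <;>
        first
          | exact h (hq.trans a1.symm)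
          | exact h' (a3.trans a1.symm)
          | exact hne (hq.trans a3.symm)
    · intro h h'
      push Not at h
      exact hne (h'.trans h.symm)
  refine sign_iff (D.ori m.hq) (D.ori m.hq') hop2 ?_
  rw [← D.be2 m, ← D.be2 (mid_swap m), k1, k2]
  exact k3

end DNet0

end Vale.Agent.P032.Net.H12
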